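import Crest.Agent.X212.Glc56.Std

/-!
# X212 / IX-CYL (helper56): an incoming end absorbs a cylinder
-/

set_option autoImplicit false
set_option linter.unusedSectionVars false
noncomputable section
open scoped Manifold ContDiff Topology InnerProductSpace
open MeasureTheory Set Function Filter

namespace Crest.Agent.X212.Glc56
open An M Cyf70 Nd18 Pj41

variable {κ lam : Type} [Fintype κ] [Fintype lam] {Z : Mf 4} {b : BG κ lam Z} {O' : Set Z.M}

/-- the identity on an open set -/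
def gpId (hb : b.OK O') {V : Set Z.M} (hV : IsOpen V) (hs : V ⊆ b.O) : GP b b where
  φ := .ofSet V hV
  U x i j := b.B.P i j x
  v := b.B.l
  g := Eqv71.LG.geq (φ := .ofSet V hV) (Eqv71.lg_refl hb.B hb.G hV) contMDiffOn_id Measure.map_id
  sub := hs
  sub' := hs

section nk
variable {X : XD κ lam} (K : Nk X.D b.B b.G)

theorem nk_img {S : Set ℝ} (hS : S ⊆ K.J) : K.ψ '' univ ×ˢ S = K.tm ⁻¹' S :=
  (image_subset_iff.2 fun z hz => by
    show K.tm _ ∈ S
    rw [K.tm_ψ z (K.mem_src.2 (hS hz.2))]; exact hz.2).antisymm fun _ hx =>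
    let ⟨z, h, e⟩ := nk_image K hS hx; ⟨z, ⟨trivial, h⟩, e⟩

/-- the shifted inverse chart below the time `r` -/
def nkI (r l : ℝ) : OpenPartialHomeomorph Z.M (X.Y.M × ℝ) :=
  (K.ψ.symm.restrOpen (K.tm ⁻¹' Iio r) (isOpen_Iio.preimage K.cont)).transHomeomorph
    (Cht98.tau X.Y.M l)

theorem nkI_apply (r l : ℝ) (x : Z.M) : nkI K r l x = ((K.ψ.symm x).1, (K.ψ.symm x).2 + l) := rfl

variable {K} {r : ℝ} (hJ : Iio r ⊆ K.J) (l : ℝ)
include hJ

theorem nkI_src : (nkI K r l).source = K.tm ⁻¹' Iio r :=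
  inter_eq_right.2 fun _ hx => K.tgt.ge (hJ hx)

theorem nkI_ψ {z : X.Y.M × ℝ} (hz : z.2 < r) : nkI K r l (K.ψ z) = (z.1, z.2 + l) := by
  rw [nkI_apply, K.ψ.left_inv (K.mem_src.2 (hJ hz))]

theorem nkI_img {S : Set ℝ} (hS : S ⊆ Iio r) :
    nkI K r l '' (K.tm ⁻¹' S) = univ ×ˢ {t | t - l ∈ S} := by
  rw [← nk_img K (hS.trans hJ), image_image]
  refine (image_subset_iff.2 fun z hz => ?_).antisymm fun z hz =>
    ⟨(z.1, z.2 - l), ⟨trivial, hz.2⟩, (nkI_ψ hJ l (z := (z.1, z.2 - l)) (hS hz.2)).trans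
      (by rw [sub_add_cancel])⟩
  rw [mem_preimage, nkI_ψ hJ l (hS hz.2)]
  exact ⟨trivial, by simpa using hz.2⟩

omit hJ in
theorem nkI_rel : GRel b.B b.G X.D.B X.D.G (nkI K r l) (nkI K r l).source := by
  have s : (nkI K r l).source ⊆ K.ψ.target := fun _ hx => hx.1
  have g := nk_gRel K
  have g' := gRel_sh X.D l
  have m := fun x hx => K.ψ.map_target (s (a := x) hx)
  have i := fun x hx => K.ψ.right_inv (s (a := x) hx)
  exact ⟨(K.rel'.mono (nkI K r l).open_source s).trans g'.fr (mapsTo_univ _ _),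
    fun a c x hx => ((g'.P a c _ trivial).symm.trans ((g.P a c _ (m x hx)).trans
      (by rw [i x hx]))).symm,
    fun a c d e x hx => ((g'.o a c d e _ trivial).symm.trans ((g.o a c d e _ (m x hx)).trans
      (by rw [i x hx]))).symm,
    fun x hx => ((g'.l _ trivial).symm.trans ((g.l _ (m x hx)).trans (by rw [i x hx]))).symm,
    g.il.symm, fun a x hx => ((g'.a a _ trivial).symm.trans ((g.a a _ (m x hx)).trans
      (by rw [i x hx]))).symm⟩

/-- the patch from a neck to the cylinder -/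
def gpNk (hX : X.D.OK) (hb : b.OK O') (hs : K.tm ⁻¹' Iio r ⊆ b.O) : GP b X.bg where
  φ := nkI K r l
  U x i j := X.D.B.P i j (nkI K r l x)
  v x := X.D.B.l (nkI K r l x)
  g := have k := nkI_rel (K := K) (r := r) l
    k.fr.gEq hb.B hX.B hb.G hX.G k.a k.o k.l k.il
  sub := (nkI_src hJ l).trans_subset hs
  sub' := subset_univ _

theorem gpNk_mk (hX : X.D.OK) (hb : b.OK O') (hs : K.tm ⁻¹' Iio r ⊆ b.O) :
    (gpNk hJ l hX hb hs).Mk (X := X) K X.D.nk false := by
  refine ⟨-r, l, fun z hz => ?_⟩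
  have h : z.2 < r := by have : -r < -1 * z.2 := hz.2; linarith
  have e := nkI_ψ hJ l h
  have g := gRel_sh X.D l
  refine ⟨(nkI_src hJ l).ge ?_, e, funext₂ fun i j => ?_, ?_⟩
  · show K.tm _ < r
    rwa [K.tm_ψ z (K.mem_src.2 (hJ h))]
  · exact (congrArg (X.D.B.P i j) e).trans (g.P i j z trivial).symm
  · exact (congrArg X.D.B.l e).trans (g.l z trivial).symm

end nk

theorem gpId_mt (hb : b.OK O') {V : Set Z.M} (hV : IsOpen V) (hs : V ⊆ b.O) {a : b.A} {s : ℝ}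
    (hJ : (b.E a).ht s ⊆ (b.E a).K.J) (h : (b.E a).U s ⊆ V) : (gpId hb hV hs).Mt a a :=
  ⟨(b.E a).X, (b.E a).K, (b.E a).K, (b.E a).out, rfl, rfl, s, 0, fun z hz =>
    have k := (b.E a).K.mem_src.2 (hJ hz.2)
    ⟨h ⟨z, hz, rfl⟩, by rw [add_zero]; rfl, funext₂ fun i j => (b.E a).K.P i j z k,
      (b.E a).K.l z k⟩⟩

open Classical in
/-- the ends of an absorbed cylinder -/
def absE {A : Type} (a : A) : A ≃ {o : Bool // o ≠ true} ⊕ {a' // a' ≠ a} where
  toFun a' := if h : a' = a then .inl ⟨false, by simp⟩ else .inr ⟨a', h⟩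
  invFun := Sum.elim (fun _ => a) (·.1)
  left_inv a' := by dsimp only; split_ifs with h; exacts [h.symm, rfl]
  right_inv := by
    rintro (⟨_ | _, h⟩ | ⟨a', h⟩)
    exacts [dif_pos rfl, (h rfl).elim, dif_neg h]

/-- **IX-CYL** -/
theorem cyl : CylStmt κ lam := fun X hX => ⟨cyl_ok hX, fun Z b a K hb e s => by
  obtain ⟨s₀, h0⟩ := hb.en
  have ⟨j, o, d⟩ := h0 a
  have d' := fun a' (h : a' ≠ a) => (h0 a').2.2 a h.symm
  obtain ⟨S, k1, k2⟩ : ∃ S, s ≤ S - 1 ∧ s₀ ≤ S - 1 :=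
    ⟨max s s₀ + 1, by simp, by simp⟩
  have k0 : s ≤ S := by linarith
  have eh : ∀ r, (En.mk X K false).ht r = Iio (-r) := fun r => Set.ext fun t =>
    show r < -1 * t ↔ t < -r from ⟨fun h => by linarith, fun h => by linarith⟩
  rw [e] at j o d'
  have eU : ∀ r, s₀ ≤ r → (En.mk X K false).U r = K.tm ⁻¹' Iio (-r) := fun r h =>
    (nk_img K ((ht_mono _ h).trans j)).trans (by rw [eh])
  rw [eU _ le_rfl] at o d'
  rw [eh] at j
  have i : Iio (1 - S) ⊆ Iio (-s₀) := Iio_subset_Iio (by linarith)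
  have i' : Iic (-S - 1) ⊆ Iio (1 - S) := Iic_subset_Iio.2 (by linarith)
  have hJ : Iio (1 - S) ⊆ K.J := i.trans j
  have hs : K.tm ⁻¹' Iio (1 - S) ⊆ b.O := (preimage_mono i).trans o
  have hV : IsOpen (b.O \ K.tm ⁻¹' Iic (-S - 1)) :=
    hb.cl.2.sdiff (isClosed_Iic.preimage K.cont)
  have src := nkI_src hJ (S + S)
  have mt : ∀ a', a' ≠ a → (gpId hb hV sdiff_subset).Mt a' a' := fun a' h =>
    gpId_mt hb hV sdiff_subset (h0 a').1 fun x hx =>
      ⟨(h0 a').2.1 hx, fun k => disjoint_left.1 (d' a' h) hx (i (i' k))⟩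
  have mk := gpNk_mk hJ (S + S) hX.ok hb hs
  refine ⟨⟨gpNk hJ (S + S) hX.ok hb hs, gpId hb hV sdiff_subset, true, a, X.D.nk, K, S, S, absE a,
    rfl, e, fun _ _ => by simp [Nk.J, YD.nk, Jv], hJ, ?_, ?_, ?_, ?_, fun x hx y t h k => ?_,
    fun a' => ?_⟩, rfl, rfl, k0, k0, fun _ _ => rfl, ?_, mk, mt,
    fun f hf => ⟨hf, cyl_ok hX f, hf, fun x hx => ?_, fun _ _ => Iff.rfl, fun x _ => ?_,
      fun x hx => ?_⟩⟩
  · refine (union_subset (src.trans_subset hs) sdiff_subset).antisymm fun x hx => ?_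
    by_cases h : K.tm x ≤ -S - 1
    exacts [.inl (src.ge (i' h)), .inr ⟨hx, h⟩]
  · refine ((nkI K _ _).image_source_eq_target.symm.trans (by rw [src, nkI_img hJ _ subset_rfl])).trans
      (Set.ext fun z => ?_)
    simp [YD.nk]
    constructor <;> intro <;> linarith
  · exact congrArg (b.O \ ·) (nk_img K (i'.trans hJ)).symm
  · have : (nkI K (1 - S) (S + S)).source ∩ (b.O \ K.tm ⁻¹' Iic (-S - 1)) =
        K.tm ⁻¹' Ioo (-S - 1) (1 - S) := by
      rw [src]
      exact Set.ext fun x => ⟨fun h => ⟨not_le.1 h.2.2, h.1⟩, fun h => ⟨h.2, hs h.2, not_le.2 h.1⟩⟩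
    refine (congrArg (nkI K _ _ '' ·) this).trans ((nkI_img hJ _ Ioo_subset_Iio_self).trans
      (Set.ext fun z => ?_))
    simp [YD.nk]
    constructor <;> rintro ⟨_, _⟩ <;> constructor <;> linarith
  · have g := nkI_rel (K := K) (r := 1 - S) (S + S)
    refine ⟨?_, funext₂ fun i j => (g.P i j x hx).symm, (g.l x hx).symm⟩
    have k1 : (K.ψ.symm x).1 = y := congrArg Prod.fst k
    have k2 : (K.ψ.symm x).2 + (S + S) = S + t := congrArg Prod.snd k
    rw [← k1, show t - S = (K.ψ.symm x).2 by linarith]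
    exact (K.ψ.right_inv hx.1).symm
  · by_cases h : a' = a
    · rw [show absE a a' = .inl ⟨false, by simp⟩ from dif_pos h, h]
      exact ⟨X, K, X.D.nk, false, e, rfl, mk⟩
    · rw [show absE a a' = .inr ⟨a', h⟩ from dif_neg h]
      exact mt a' h
  · refine src.trans_subset (subset_trans ?_ (U_mono _ k1))
    rw [e, eU _ k2, neg_sub]
  · cases f
    exacts [Iff.rfl, iff_of_true trivial (hs (src.le hx))]
  · cases f <;> simp [spO]
  · cases f
    · simp [spO]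
    · exact iff_of_true (hs (by rwa [← neg_sub, ← eU _ k2])) rfl⟩

end Crest.Agent.X212.Glc56
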