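import Crest.Agent.X212.Pj41.Nkg
import Crest.Agent.X212.Eqv71.Nat

/-!
# X212 / IX-GLC (helper56): local pull-back and gluing of configurations
-/

set_option autoImplicit false
set_option linter.unusedSectionVars false

open Set Function Filter Topology
open scoped ContDiff Manifold InnerProductSpace

namespace Crest.Agent.X212.Glc56

open An Sob92 Nd18 Cyf70 Pj41
open Tmp64 (AdmOn Eq0 admOn_univ)
open Eqv71 (pullC)

noncomputable section

variable {E : Type} [NormedAddCommGroup E] [NormedSpace ℝ E] [FiniteDimensional ℝ E]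
  [MeasurableSpace E] [BorelSpace E]
  {HM : Type} [TopologicalSpace HM] {I : ModelWithCorners ℝ E HM} [I.Boundaryless]
  {M : Type} [TopologicalSpace M] [ChartedSpace HM M] [IsManifold I ∞ M]
  [MeasurableSpace M] {ι : Type} [Fintype ι] {lam : Type} [Fintype lam]
  {E' : Type} [NormedAddCommGroup E'] [NormedSpace ℝ E'] [FiniteDimensional ℝ E']
  [MeasurableSpace E'] [BorelSpace E']
  {HM' : Type} [TopologicalSpace HM'] {I' : ModelWithCorners ℝ E' HM'} [I'.Boundaryless]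
  {M' : Type} [TopologicalSpace M'] [ChartedSpace HM' M'] [IsManifold I' ∞ M']
  [MeasurableSpace M'] {ι' : Type} [Fintype ι'] {lam' : Type} [Fintype lam'] {r : ℕ}
  {B : Base M ι lam} {G : Geo I M ι lam} {B' : Base M' ι' lam'} {G' : Geo I' M' ι' lam'}
  {φ : OpenPartialHomeomorph M M'} {U : M → ι' → ι → ℝ} {v : M → CL (Eu lam) (Eu lam')}
  {O : Set M} {O' : Set M'}

/-! ### pull-back -/

section pull
variable (g : GEq B G B' G' φ U v) (hO : O ⊆ φ.source) (hO' : MapsTo φ O O')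
include g hO hO'

theorem admOn_pull (hB : B.OK I) (hG : G.OK B) (hB' : B'.OK I') (hG' : G'.OK B')
    {c : Cfg M' ι' lam' r} (h : AdmOn c B' G' O') : AdmOn (pullC c φ U v) B G O := by
  have k := pull_ok g hO hO' hB h.ok
  refine ⟨k, pull_conn g hO hO' hG.P hG'.P h.ok h.conn,
    fun x hx => (geq_rot g).sa_comp (hO hx) (h.sm _ (hO' hx)), fun x hx => ?_, h.z⟩
  have e := (Eqv71.me_of_meq (pull_mEq g hO hO' hB h.ok) hx).om (geq_be g (hO hx)) hB hB'
    (c.Φ (φ x))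
  have p := h.pΦ (hO' hx)
  have q := congrArg (fun T : En (Fin c.m.N) => T (c.Φ (φ x))) (Tmp64.p_pp k hx)
  have s := h.pos _ (hO' hx)
  refine q.symm.trans (Eq.trans ?_ s)
  simp only [Md.pp, smul_apply, sub_apply, mul_apply_eq_comp, map_smul, map_sub, p] at e ⊢
  rw [e]

theorem eq0_pull (hG : G.OK B) {c d : Cfg M' ι' lam' r} {w : M' → CL c.m.V d.m.V}
    (h : Eq0 G'.F c d O' w) : Eq0 G.F (pullC c φ U v) (pullC d φ U v) O fun x => w (φ x) := by
  have R := geq_rot g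
  have F : Wz78.Frm I G.F.e B.P G.F.c := hG.P ▸ Wz78.frm G.F
  refine ⟨⟨fun x hx => R.sa_comp (hO hx) (h.iso.su _ (hO' hx)), fun x hx => h.iso.iso _ (hO' hx),
    fun x hx => h.iso.J _ (hO' hx), fun x hx a => ?_, fun x hx s => h.iso.j _ (hO' hx) _⟩,
    fun x hx a => ?_, fun x hx => h.Φ _ (hO' hx), h.z⟩
  · show (∑ b, U x b a • d.m.ρ b (φ x)) ∘L w (φ x) = w (φ x) ∘L ∑ b, U x b a • c.m.ρ b (φ x)
    simp only [ContinuousLinearMap.finsetSum_comp, ContinuousLinearMap.comp_finsetSum,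
      ContinuousLinearMap.smul_comp, ContinuousLinearMap.comp_smul, h.iso.ρ _ (hO' hx)]
  · show dv I (G.F.e a) (fun y => w (φ y)) x + (∑ b, U x b a • d.W b (φ x)) ∘L w (φ x) -
      w (φ x) ∘L ∑ b, U x b a • c.W b (φ x) = 0
    rw [R.D F (hO hx) a (h.iso.su _ (hO' hx)).md]
    simp only [ContinuousLinearMap.finsetSum_comp, ContinuousLinearMap.comp_finsetSum,
      ContinuousLinearMap.smul_comp, ContinuousLinearMap.comp_smul, ← Finset.sum_add_distrib,
      ← Finset.sum_sub_distrib, ← smul_add, ← smul_sub]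
    exact Finset.sum_eq_zero fun b _ => by
      rw [show dv I' (G'.F.e b) w (φ x) + _ - _ = 0 from h.par _ (hO' hx) b, smul_zero]

theorem ceq_of_eq0 {c : Cfg M ι lam 0} {c' : Cfg M' ι' lam' 0} (hm : OKOn I' B' c'.m O')
    {ζ : Circle} {u : M → CL c.m.V c'.m.V} (h : Eq0 G.F c (pullC (ph ζ c') φ U v) O u) :
    CEq G.F c c' O φ U v u ζ⁻¹ :=
  ⟨mEq_of_iso0 g hO hO' hm h.iso, par_iff_par0.2 h.par, fun x hx => by
    rw [← h.Φ x hx]
    show _ = cs c'.m.J _ (cs c'.m.J ζ (c'.Φ (φ x)))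
    rw [Eqv71.cs_mul hm.Jsq, ← Circle.coe_mul, inv_mul_cancel]
    exact (Eqv71.cs_one _ _).symm, Subsingleton.elim _ _⟩

theorem eq0_of_ceq (o : IsOpen O) {c : Cfg M ι lam 0} {c' : Cfg M' ι' lam' 0}
    (hm : OKOn I B c.m O) (hJ : c'.m.J * c'.m.J = -1) {ζ : Circle} {u : M → CL c.m.V c'.m.V}
    (h : CEq G.F c c' O φ U v u ζ) : Eq0 G.F c (pullC (ph ζ⁻¹ c') φ U v) O u :=
  ⟨iso0_of_mEq g hO hO' o hm h.m, par_iff_par0.1 h.W, fun x hx => by
    show cs c'.m.J _ (c'.Φ (φ x)) = _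
    rw [h.Φ x hx, Eqv71.cs_mul hJ, ← Circle.coe_mul, inv_mul_cancel]
    exact Eqv71.cs_one _ _, Subsingleton.elim _ _⟩

end pull

/-- the target may be changed off `O` -/
theorem eq0_tgt {F : Fr I M ι} {c : Cfg M ι lam r} {N : ℕ} {J : En (Fin N)}
    {p p' : M → En (Fin N)} {ρ ρ' W W' : ι → M → En (Fin N)}
    {j j' : M → CL (Eu lam) (En (Fin N))} {Φ Φ' : M → Eu (Fin N)} {z : EuclideanSpace ℂ (Fin r)}
    {u : M → CL c.m.V (Eu (Fin N))} (h : Eq0 F c ⟨⟨N, J, p, ρ, j⟩, W, Φ, z⟩ O u)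
    (e1 : EqOn p' p O) (e2 : ∀ b, EqOn (ρ' b) (ρ b) O) (e3 : EqOn j' j O)
    (e4 : ∀ b, EqOn (W' b) (W b) O) (e5 : EqOn Φ' Φ O) :
    Eq0 F c ⟨⟨N, J, p', ρ', j'⟩, W', Φ', z⟩ O u :=
  ⟨⟨h.iso.su, fun x hx => by dsimp only; rw [e1 hx]; exact h.iso.iso x hx, h.iso.J,
    fun x hx b => by dsimp only; rw [e2 b hx]; exact h.iso.ρ x hx b,
    fun x hx s => by dsimp only; rw [e3 hx]; exact h.iso.j x hx s⟩,
    fun x hx a => by dsimp only; rw [e4 a hx]; exact h.par x hx a,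
    fun x hx => (e5 hx).trans (h.Φ x hx), h.z⟩

theorem eq0_empty {F : Fr I M ι} {c c' : Cfg M ι lam 0} {u : M → CL c.m.V c'.m.V} (h : O = ∅) :
    Eq0 F c c' O u :=
  h ▸ ⟨⟨fun _ h => h.elim, fun _ h => h.elim, fun _ h => h.elim, fun _ h => h.elim,
    fun _ h => h.elim⟩, fun _ h => h.elim, fun _ h => h.elim, Subsingleton.elim _ _⟩

/-! ### gluing -/

variable [T2Space M] [SigmaCompactSpace M]

theorem glueK {K : Type} [Fintype K] {Oi : K → Set M} {ci : K → Cfg M ι lam 0}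
    {u : ∀ i j, M → CL (ci j).m.V (ci i).m.V} (hG : G.OK B) (op : ∀ i, IsOpen (Oi i))
    (cov : ∀ x, ∃ i, x ∈ Oi i) (ad : ∀ i, AdmOn (ci i) B G (Oi i))
    (e : ∀ i j, Eq0 G.F (ci j) (ci i) (Oi i ∩ Oi j) (u i j))
    (mul : ∀ i j l, ∀ x ∈ Oi i, x ∈ Oi j → x ∈ Oi l → u i j x ∘L u j l x = u i l x) :
    ∃ (c : Cfg M ι lam 0) (a : ∀ i, M → CL (ci i).m.V c.m.V), c.Adm B G ∧
      (∀ i, Eq0 G.F (ci i) c (Oi i) (a i)) ∧
      ∀ i j, ∀ x ∈ Oi i, x ∈ Oi j → a i x ∘L u i j x = a j x := by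
  obtain ⟨m, a, W, Φ, h1, h2, h3, h4, h5⟩ := cfg_glue (G := G) (mi := fun i => (ci i).m)
    ⟨op, cov, fun i => (ad i).ok, fun i j => (e i j).iso, mul⟩ hG.P (fun i => (ad i).conn)
    (fun i j => (e i j).par) (fun i => (ad i).sm) fun i j x hi hj => ((e i j).Φ x ⟨hi, hj⟩).symm
  refine ⟨⟨m, W, Φ, 0⟩, a, ⟨h1, h2, h3, fun x => ?_, .inl rfl⟩,
    fun i => ⟨(h4 i).1, (h4 i).2.1, (h4 i).2.2, Subsingleton.elim _ _⟩,
    fun i j x hi hj => (h5 i j x hi hj).2⟩
  obtain ⟨i, hi⟩ := cov x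
  show m.pp B x (Φ x) = Φ x
  rw [(h4 i).2.2 x hi, (h4 i).1.pp hi, (ad i).pos x hi]

/-- two pieces and the complement of their union -/
theorem glue3 {c₀ c₁ c₂ : Cfg M ι lam 0} {O₁ O₂ : Set M} (hG : G.OK B) (o₁ : IsOpen O₁)
    (o₂ : IsOpen O₂) (cl : IsClosed (O₁ ∪ O₂)) (h₀ : AdmOn c₀ B G (O₁ ∪ O₂)ᶜ)
    (h₁ : AdmOn c₁ B G O₁) (h₂ : AdmOn c₂ B G O₂) {t : M → CL c₁.m.V c₂.m.V}
    (ht : Eq0 G.F c₁ c₂ (O₁ ∩ O₂) t) :
    ∃ (c : Cfg M ι lam 0) (a₀ : M → CL c₀.m.V c.m.V) (a₁ : M → CL c₁.m.V c.m.V)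
      (a₂ : M → CL c₂.m.V c.m.V), c.Adm B G ∧ Eq0 G.F c₀ c (O₁ ∪ O₂)ᶜ a₀ ∧ Eq0 G.F c₁ c O₁ a₁ ∧
      Eq0 G.F c₂ c O₂ a₂ ∧ ∀ x ∈ O₁ ∩ O₂, a₂ x ∘L t x = a₁ x := by
  let Oi : Option Bool → Set M := fun i => match i with
    | none => (O₁ ∪ O₂)ᶜ
    | some false => O₁
    | some true => O₂
  let ci : Option Bool → Cfg M ι lam 0 := fun i => match i with
    | none => c₀
    | some false => c₁
    | some true => c₂
  let u : ∀ i j, M → CL (ci j).m.V (ci i).m.V := fun i j => match i, j with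
    | none, none => c₀.m.p
    | some false, some false => c₁.m.p
    | some true, some true => c₂.m.p
    | some true, some false => t
    | some false, some true => fun x => ad (t x)
    | none, some _ => 0
    | some _, none => 0
  have i := ht.iso.iso
  obtain ⟨c, a, k1, k2, k3⟩ := glueK (Oi := Oi) (ci := ci) (u := u) hG
    (by rintro (_ | _ | _); exacts [cl.isOpen_compl, o₁, o₂])
    (fun x => by
      by_cases h : x ∈ O₁ ∪ O₂
      · exact h.elim (fun h => ⟨some false, h⟩) fun h => ⟨some true, h⟩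
      · exact ⟨none, h⟩)
    (by rintro (_ | _ | _); exacts [h₀, h₁, h₂])
    (by
      rintro (_ | _ | _) (_ | _ | _)
      exacts [(Eq0.refl h₀).mono inter_subset_left,
        eq0_empty (eq_empty_of_forall_notMem fun x hx => hx.1 (.inl hx.2)),
        eq0_empty (eq_empty_of_forall_notMem fun x hx => hx.1 (.inr hx.2)),
        eq0_empty (eq_empty_of_forall_notMem fun x hx => hx.2 (.inl hx.1)),
        (Eq0.refl h₁).mono inter_subset_left,
        ht.symm (h₁.mono inter_subset_left) (h₂.mono inter_subset_right),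
        eq0_empty (eq_empty_of_forall_notMem fun x hx => hx.2 (.inr hx.1)),
        ht.mono fun x hx => ⟨hx.2, hx.1⟩, (Eq0.refl h₂).mono inter_subset_left])
    (by
      rintro (_ | _ | _) (_ | _ | _) (_ | _ | _) x h1 h2 h3 <;>
      first
        | exact (h1 (Or.inl h2)).elim | exact (h1 (Or.inr h2)).elim | exact (h1 (Or.inl h3)).elim
        | exact (h1 (Or.inr h3)).elim | exact (h2 (Or.inl h1)).elim | exact (h2 (Or.inr h1)).elim
        | exact (h3 (Or.inl h1)).elim | exact (h3 (Or.inr h1)).elim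
        | exact h₀.ok.pidem x h1 | exact h₁.ok.pidem x h1 | exact h₂.ok.pidem x h1
        | exact (i x ⟨h1, h3⟩).symm.left | exact (i x ⟨h1, h2⟩).src
        | exact (i x ⟨h1, h2⟩).symm.idem | exact (i x ⟨h2, h1⟩).idem
        | exact (i x ⟨h2, h1⟩).tgt | exact (i x ⟨h3, h1⟩).left)
  exact ⟨c, a none, a (some false), a (some true), k1, k2 none, k2 (some false), k2 (some true),
    fun x hx => k3 (some true) (some false) x hx.2 hx.1⟩

/-! ### necks -/

section nk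
variable {E3 : Type} [NormedAddCommGroup E3] [NormedSpace ℝ E3] [FiniteDimensional ℝ E3]
  [MeasurableSpace E3] [BorelSpace E3]
  {H3 : Type} [TopologicalSpace H3] {I3 : ModelWithCorners ℝ E3 H3} [I3.Boundaryless]
  {Y : Type} [TopologicalSpace Y] [ChartedSpace H3 Y] [IsManifold I3 ∞ Y] [T2Space Y]
  [MeasurableSpace Y] [BorelSpace Y] [SecondCountableTopology Y] [CompactSpace Y]
  {κ : Type} [Fintype κ] {D : YD I3 Y κ lam} {B : Base M (Option κ) lam}
  {G : Geo I M (Option κ) lam} [BorelSpace M] [SecondCountableTopology M]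

/-- the limit, transported to the neck -/
abbrev lim (K : Nk D B G) (β : YC Y κ lam) : Cfg M (Option κ) lam 0 :=
  cmC (fun x => (K.ψ.symm x).1) β

theorem st_eq0 (hD : D.OK) (K : Nk D B G) {c : Cfg M (Option κ) lam 0} {β : YC Y κ lam} (hβ : D.Adm β)
    {S : Set ℝ} (hS : IsOpen S) (hJ : S ⊆ K.J) (hc : AdmOn c B G (K.ψ '' univ ×ˢ S))
    {w : Y × ℝ → CL c.m.V β.m.V} {ζ : Circle}
    (h : Mod61.EqOn D.B D.Z (univ ×ˢ S) (K.pb c) (cy β) w ζ) :
    AdmOn (lim K β) B G (K.ψ '' univ ×ˢ S) ∧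
      Eq0 G.F (ph ζ c) (lim K β) (K.ψ '' univ ×ˢ S) fun x => w (K.ψ.symm x) := by
  have o : IsOpen (univ ×ˢ S : Set (Y × ℝ)) := isOpen_univ.prod hS
  have s : (univ ×ˢ S : Set (Y × ℝ)) ⊆ K.ψ.source := fun z hz => K.mem_src.2 (hJ hz.2)
  have l : ∀ z ∈ (univ ×ˢ S : Set (Y × ℝ)), K.ψ.symm (K.ψ z) = z := fun z hz =>
    K.ψ.left_inv (s hz)
  have g := (nk_gRel K).mono o s
  have a := g.admOn_iff.2 hc
  have b := (admOn_univ.2 hβ.adm).mono (subset_univ (univ ×ˢ S))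
  have e : EqOn (fun z => w (K.ψ.symm (K.ψ z))) w (univ ×ˢ S) := fun z hz => congrArg w (l z hz)
  have k0 := Iso0.of_mEq (m' := (cy β).m) o h.m a.ok b.ok
  have k1 := k0.congr o e
  have k2 := ((par0_iff (b.conn.proj' hD.B)).2 h.W).congr o e
  refine ⟨g.admOn_iff.1 (admOn_same o (fun z hz => congrArg (β.m.p ·.1) (l z hz))
      (fun b z hz => congrArg (β.m.ρ b ·.1) (l z hz)) (fun z hz => congrArg (β.m.j ·.1) (l z hz)) b
      (fun b z hz => congrArg (β.W b ·.1) (l z hz)) (fun z hz => congrArg (β.Φ ·.1) (l z hz))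
      (.inl rfl)),
    g.fr.iso0_push ⟨k1.su, fun z hz => ?_, k1.J, fun z hz b => ?_, fun z hz t => ?_⟩,
    g.fr.par0_push (m' := (lim K β).m) fun z hz a => ?_, forall_mem_image.2 fun z hz => ?_,
    Subsingleton.elim _ _⟩
  · dsimp only; rw [l z hz]; exact k0.iso z hz
  · dsimp only; rw [l z hz]; exact k0.ρ z hz b
  · dsimp only; rw [l z hz]; exact k0.j z hz t
  · have := k2 z hz a
    dsimp only at this ⊢; rw [l z hz] at this ⊢; exact this
  · dsimp only; rw [l z hz]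
    exact (h.Φ z hz).trans (Eqv71.map_cs (h.m.J z hz) _ _).symm

end nk

end

end Crest.Agent.X212.Glc56
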