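import Crest.Agent.X212.Nd18.Ind
import Crest.Agent.X212.Glc56.Gen

/-!
# X212 / IX-GLC, IX-TRP (helper56): gluing and transport of configurations
-/

set_option autoImplicit false
set_option linter.unusedSectionVars false
noncomputable section
open scoped Manifold ContDiff Topology InnerProductSpace
open MeasureTheory Set Function Filter

namespace Crest.Agent.X212.Glc56
open An M Cyf70 Nd18 Pj41
open Tmp64 (AdmOn Eq0 admOn_univ)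
open Eqv71 (pullC)

variable {κ lam : Type} [Fintype κ] [Fintype lam]

/-- **IX-TRP** -/
theorem trp : TrpStmt κ lam := fun Z Z' b b' p f c c₀ hb hb' hp hc h₀ => by
  have := Sob92.scs (I := Z'.I) (M := Z'.M)
  have g := Eqv71.geq_symm p.g hb.B hb.G hb'.B hb'.G
  have m : MapsTo p.φ.symm p.φ.target univ := mapsTo_univ _ _
  have a := admOn_pull g subset_rfl m hb'.B hb'.G hb.B hb.G (admOn_ph 1 (admOn_univ.2 hc))
  have o := p.φ.open_target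
  have e : p.φ.target ∪ p.φ.target = b'.O := by rw [union_self, hp.tgt]
  have a₀ := (admOn_univ.2 h₀).mono (subset_univ (p.φ.target ∪ p.φ.target)ᶜ)
  obtain ⟨c', u₀, u, -, k1, k2, k3, -⟩ := glue3 hb'.G o o (e ▸ hb'.cl.1) a₀ a a
    ((Eq0.refl a).mono inter_subset_left)
  have a' := fun S => (admOn_univ.2 k1).mono (subset_univ S)
  have k4 := ceq_of_eq0 g subset_rfl m (okOn_univ.2 hc.ok) (k3.symm a (a' _))
  have k5 := Eqv71.ceq_symm (Eqv71.lg_of_geq g hb'.B hb'.G hb.B hb.G o subset_rfl)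
    (Eqv71.inv_of_geq' g) (Eqv71.ad0 k1) (Eqv71.ad0 hc) k4
  rw [inv_inv] at k5
  exact ⟨c', _, k1, Eqv71.ceq_symm_symm (Eqv71.inv_of_geq' p.g) k5, u₀,
    e ▸ k2.cEq hb'.B a₀ (a' _)⟩

section glc
variable {X : XD κ lam} {Z₁ Z₃ Z₄ : Mf 4} {b₁ : BG κ lam Z₁} {b₃ : BG κ lam Z₃} {b₄ : BG κ lam Z₄}
  (g : GC X b₁ b₃ b₄)

theorem band {x : Z₁.M} (hx : x ∈ g.p₃.φ.source ∩ g.p₄.φ.source) :
    ∃ y t, |t| < 1 ∧ g.p₃.φ x = g.K₃.ψ (y, g.s₃ + t) := by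
  obtain ⟨⟨y, s⟩, h, e⟩ := g.band.le ⟨x, hx, rfl⟩
  exact ⟨y, s - g.s₃, abs_lt.2 ⟨by linarith [h.2.1], by linarith [h.2.2]⟩, by simpa using e.symm⟩

theorem ht₃ {t : ℝ} (h : |t| < 1) : g.s₃ + t ∈ g.E₃.ht (g.s₃ - 1) := by
  show g.s₃ - 1 < 1 * (g.s₃ + t)
  linarith [(abs_lt.1 h).1]

theorem ht₄ {t : ℝ} (h : |t| < 1) : t - g.s₄ ∈ g.E₄.ht (g.s₄ - 1) := by
  show g.s₄ - 1 < -1 * (t - g.s₄)
  linarith [(abs_lt.1 h).2]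

theorem ht_open {Z : Mf 4} {B : Base Z.M (Option κ) lam} {G : Geo Z.I Z.M (Option κ) lam}
    (e : En B G) (s : ℝ) : IsOpen (e.ht s) := isOpen_lt continuous_const (by fun_prop)

end glc

/-- **IX-GLC** -/
theorem glc : GlcStmt κ lam := fun X Z₁ Z₃ Z₄ b₁ b₃ b₄ g c₀ c₃ c₄ β w₃ η₃ w₄ η₄ hs h₀ h₃ h₄ s₃ s₄ => by
  have := Sob92.scs (I := Z₁.I) (M := Z₁.M)
  have := Sob92.scs (I := Z₃.I) (M := Z₃.M)
  have := Sob92.scs (I := Z₄.I) (M := Z₄.M)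
  have hX : X.OK := by have := hs.o₃.X g.a₃; rwa [g.e₃] at this
  have a₃ := fun S => (admOn_univ.2 h₃).mono (subset_univ S)
  have a₄ := fun S => (admOn_univ.2 h₄).mono (subset_univ S)
  have m₃ : MapsTo g.p₃.φ g.p₃.φ.source univ := mapsTo_univ _ _
  have m₄ : MapsTo g.p₄.φ g.p₄.φ.source univ := mapsTo_univ _ _
  have d₃ := admOn_pull g.p₃.g subset_rfl m₃ hs.o₁.B hs.o₁.G hs.o₃.B hs.o₃.G (admOn_ph η₃ (a₃ _))
  have d₄ := admOn_pull g.p₄.g subset_rfl m₄ hs.o₁.B hs.o₁.G hs.o₄.B hs.o₄.G (admOn_ph η₄ (a₄ _))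
  obtain ⟨-, e₃⟩ := st_eq0 hX.ok g.K₃ s₃.adm (ht_open _ _) s₃.sub (a₃ _) s₃.eq
  obtain ⟨l₄, e₄⟩ := st_eq0 hX.ok g.K₄ s₄.adm (ht_open _ _) s₄.sub (a₄ _) s₄.eq
  have i₃ : ∀ y t, |t| < 1 → g.K₃.ψ.symm (g.K₃.ψ (y, g.s₃ + t)) = (y, g.s₃ + t) := fun y t h =>
    g.K₃.ψ.left_inv (g.K₃.mem_src.2 (s₃.sub (ht₃ g h)))
  have i₄ : ∀ y t, |t| < 1 → g.K₄.ψ.symm (g.K₄.ψ (y, t - g.s₄)) = (y, t - g.s₄) := fun y t h =>
    g.K₄.ψ.left_inv (g.K₄.mem_src.2 (s₄.sub (ht₄ g h)))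
  have n₃ : MapsTo g.p₃.φ (g.p₃.φ.source ∩ g.p₄.φ.source)
      (g.K₃.ψ '' univ ×ˢ g.E₃.ht (g.s₃ - 1)) := fun x hx =>
    let ⟨y, t, h, e⟩ := band g hx; ⟨(y, g.s₃ + t), ⟨trivial, ht₃ g h⟩, e.symm⟩
  have n₄ : MapsTo g.p₄.φ (g.p₃.φ.source ∩ g.p₄.φ.source)
      (g.K₄.ψ '' univ ×ˢ g.E₄.ht (g.s₄ - 1)) := fun x hx =>
    let ⟨y, t, h, e⟩ := band g hx
    ⟨(y, t - g.s₄), ⟨trivial, ht₄ g h⟩, (g.jj x hx.1 y t h e).1.symm⟩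
  have j : ∀ x ∈ g.p₃.φ.source ∩ g.p₄.φ.source, (g.K₄.ψ.symm (g.p₄.φ x)).1 =
      (g.K₃.ψ.symm (g.p₃.φ x)).1 ∧ g.p₄.U x = g.p₃.U x ∧ g.p₄.v x = g.p₃.v x := fun x hx => by
    obtain ⟨y, t, h, e⟩ := band g hx
    obtain ⟨e1, e2, e3⟩ := g.jj x hx.1 y t h e
    rw [e, e1, i₃ y t h, i₄ y t h]
    exact ⟨rfl, e2.symm, e3.symm⟩
  have q₃ := eq0_pull g.p₃.g inter_subset_left n₃ hs.o₁.G e₃
  have q₄ := eq0_pull g.p₄.g inter_subset_right n₄ hs.o₁.G e₄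
  have l := admOn_pull g.p₄.g inter_subset_right n₄ hs.o₁.B hs.o₁.G hs.o₄.B hs.o₄.G l₄
  have q : Eq0 b₁.G.F _ (pullC (lim g.K₄ β) g.p₄.φ g.p₄.U g.p₄.v) _ _ := eq0_tgt q₃
    (fun x hx => by simp only [(j x hx).1]) (fun b x hx => by simp only [j x hx])
    (fun x hx => by simp only [j x hx]) (fun b x hx => by simp only [pullW, j x hx])
    fun x hx => by simp only [(j x hx).1]
  have a₀ := (admOn_univ.2 h₀).mono (subset_univ (g.p₃.φ.source ∪ g.p₄.φ.source)ᶜ)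
  obtain ⟨c, -, u₃, u₄, k1, -, k3, k4, k5⟩ := glue3 hs.o₁.G g.p₃.φ.open_source g.p₄.φ.open_source
    (g.cov ▸ hs.o₁.cl.1) a₀ d₃ d₄ (q.trans (q₄.symm (d₄.mono inter_subset_right) l))
  have a := fun S => (admOn_univ.2 k1).mono (subset_univ S)
  refine ⟨c, k1, h₃, h₄, _, _, _, _, w₃, η₃, w₄, η₄,
    ceq_of_eq0 g.p₃.g subset_rfl m₃ (okOn_univ.2 h₃.ok) (k3.symm d₃ (a _)),
    ceq_of_eq0 g.p₄.g subset_rfl m₄ (okOn_univ.2 h₄.ok) (k4.symm d₄ (a _)), s₃, s₄,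
    by rw [mul_inv_cancel, mul_inv_cancel], fun x hx y t h e => ?_⟩
  have hx' : x ∈ g.p₃.φ.source ∩ g.p₄.φ.source := by
    obtain ⟨x', h1, h2⟩ := g.band.ge ⟨(y, g.s₃ + t),
      ⟨trivial, by linarith [(abs_lt.1 h).1], by linarith [(abs_lt.1 h).2]⟩, e.symm⟩
    rwa [← g.p₃.φ.injOn h1.1 hx h2]
  have t1 := (q.iso.iso x hx').tgt
  have t2 := (q₄.iso.iso x hx').left
  have t3 := k5 x hx'
  dsimp only at t1 t2 t3
  rw [e, i₃ y t h] at t1 t3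
  rw [(g.jj x hx y t h e).1, i₄ y t h] at t1 t2 t3
  rw [← t3, ad_comp, ad_comp, ad_ad, ← ContinuousLinearMap.comp_assoc,
    ← ContinuousLinearMap.comp_assoc, t1, t2]

end Crest.Agent.X212.Glc56
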