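import Crest.Agent.X212.Glc56.Gen
import Crest.Agent.X212.Cht98.Cov

/-!
# X212 / IX-STD (helper56): local equivalences with a phase; configurations which are standard
high up on a cylinder
-/

set_option autoImplicit false
set_option linter.unusedSectionVars false

open Set Function Filter Topology
open scoped ContDiff Manifold InnerProductSpace

namespace Crest.Agent.X212.Glc56

open An Sob92 Nd18 Cyf70 Pj41
open Tmp64 (AdmOn Eq0 admOn_univ)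

noncomputable section

variable {E : Type} [NormedAddCommGroup E] [NormedSpace ℝ E] [FiniteDimensional ℝ E]
  [MeasurableSpace E] [BorelSpace E]
  {HM : Type} [TopologicalSpace HM] {I : ModelWithCorners ℝ E HM} [I.Boundaryless]
  {M : Type} [TopologicalSpace M] [ChartedSpace HM M] [IsManifold I ∞ M]
  [MeasurableSpace M] {ι : Type} [Fintype ι] {lam : Type} [Fintype lam]
  {E' : Type} [NormedAddCommGroup E'] [NormedSpace ℝ E'] [FiniteDimensional ℝ E']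
  [MeasurableSpace E'] [BorelSpace E']
  {HM' : Type} [TopologicalSpace HM'] {I' : ModelWithCorners ℝ E' HM'} [I'.Boundaryless]
  {M' : Type} [TopologicalSpace M'] [ChartedSpace HM' M'] [IsManifold I' ∞ M']
  [MeasurableSpace M']
  {B : Base M ι lam} {G : Geo I M ι lam} {O O₁ : Set M} {O' : Set M'}

/-- equivalence over the identity with a phase -/
structure EP (F : Fr I M ι) (c c' : Cfg M ι lam 0) (O : Set M) (u : M → CL c.m.V c'.m.V)
    (ζ : Circle) : Prop where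
  iso : Iso0 I c.m c'.m O u
  par : Par0 F c.W c'.W O u
  Φ : ∀ x ∈ O, c'.Φ x = cs c'.m.J ζ (u x (c.Φ x))

section ep
variable {F : Fr I M ι} {c c' c'' : Cfg M ι lam 0} {u : M → CL c.m.V c'.m.V} {ζ ζ' : Circle}

theorem ep_iff (hB : B.OK I) (o : IsOpen O) (h : AdmOn c B G O) (h' : AdmOn c' B G O) :
    EP G.F c c' O u ζ ↔ Mod61.EqOn B G.F O c c' u ζ :=
  ⟨fun e => ⟨e.iso.mEq h.ok h'.ok, (par0_iff (h'.conn.proj' hB)).1 e.par, e.Φ,
    Subsingleton.elim _ _⟩,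
   fun e => ⟨Iso0.of_mEq o e.m h.ok h'.ok, (par0_iff (h'.conn.proj' hB)).2 e.W, e.Φ⟩⟩

theorem EP.mono (h : EP F c c' O u ζ) (hO : O₁ ⊆ O) : EP F c c' O₁ u ζ :=
  ⟨h.iso.mono hO, h.par.mono hO, fun x hx => h.Φ x (hO hx)⟩

theorem EP.trans {w : M → CL c'.m.V c''.m.V} (h : EP F c c' O u ζ) (h' : EP F c' c'' O w ζ')
    (hJ : c''.m.J * c''.m.J = -1) : EP F c c'' O (fun x => w x ∘L u x) (ζ' * ζ) :=
  ⟨h.iso.trans h'.iso, h.par.trans h'.par h.iso.su h'.iso.su, fun x hx => by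
    rw [h'.Φ x hx, h.Φ x hx, Eqv71.map_cs (h'.iso.J x hx).symm, Eqv71.cs_mul hJ]; rfl⟩

theorem EP.symm (h : EP G.F c c' O u ζ) (hc : AdmOn c B G O) (hc' : AdmOn c' B G O) :
    EP G.F c' c O (fun x => ad (u x)) ζ⁻¹ :=
  have k := h.iso.symm hc.ok hc'.ok
  ⟨k, h.par.symm h.iso.su hc.conn.sk hc'.conn.sk, fun x hx => by
    have e : ad (u x) (u x (c.Φ x)) = c.Φ x :=
      (congrArg (fun T : En (Fin c.m.N) => T (c.Φ x)) (h.iso.iso x hx).src).trans (hc.pΦ hx)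
    rw [h.Φ x hx, Eqv71.map_cs (k.J x hx).symm, e, Eqv71.cs_mul hc.ok.Jsq, ← Circle.coe_mul,
      inv_mul_cancel]
    exact (Eqv71.cs_one _ _).symm⟩

theorem EP.cm {F' : Fr I' M' ι} {ψ : M' → M} (g : FRel F' F ψ O') (hO : MapsTo ψ O' O)
    (h : EP F c c' O u ζ) : EP F' (cmC ψ c) (cmC ψ c') O' (fun x => u (ψ x)) ζ :=
  ⟨cm_iso0 (fun x hx => (g.ld x hx).contMDiffAt) hO h.iso, g.par0 hO h.par,
    fun _ hx => h.Φ _ (hO hx)⟩

theorem EP.tgt {N : ℕ} {J : En (Fin N)} {p p' : M → En (Fin N)} {ρ ρ' W W' : ι → M → En (Fin N)}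
    {j j' : M → CL (Eu lam) (En (Fin N))} {Φ Φ' : M → Eu (Fin N)}
    {z z' : EuclideanSpace ℂ (Fin 0)} {u : M → CL c.m.V (Eu (Fin N))}
    (h : EP F c ⟨⟨N, J, p, ρ, j⟩, W, Φ, z⟩ O u ζ) (e1 : EqOn p' p O)
    (e2 : ∀ b, EqOn (ρ' b) (ρ b) O) (e3 : EqOn j' j O) (e4 : ∀ b, EqOn (W' b) (W b) O)
    (e5 : EqOn Φ' Φ O) : EP F c ⟨⟨N, J, p', ρ', j'⟩, W', Φ', z'⟩ O u ζ :=
  ⟨⟨h.iso.su, fun x hx => by dsimp only; rw [e1 hx]; exact h.iso.iso x hx, h.iso.J,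
    fun x hx b => by dsimp only; rw [e2 b hx]; exact h.iso.ρ x hx b,
    fun x hx s => by dsimp only; rw [e3 hx]; exact h.iso.j x hx s⟩,
    fun x hx a => by dsimp only; rw [e4 a hx]; exact h.par x hx a,
    fun x hx => (e5 hx).trans (h.Φ x hx)⟩

end ep

theorem ep_pull {ι' lam' : Type} [Fintype ι'] [Fintype lam'] {B' : Base M' ι' lam'}
    {G' : Geo I' M' ι' lam'} {φ : OpenPartialHomeomorph M M'} {U : M → ι' → ι → ℝ}
    {v : M → CL (Eu lam) (Eu lam')} (g : GEq B G B' G' φ U v) {c : Cfg M ι lam 0}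
    {c' : Cfg M' ι' lam' 0} (hm : c.m.OK I B) {ζ : Circle} {u : M → CL c.m.V c'.m.V}
    (h : CEq G.F c c' φ.source φ U v u ζ) : EP G.F c (Eqv71.pullC c' φ U v) φ.source u ζ :=
  ⟨iso0_of_mEq g subset_rfl (mapsTo_univ _ _) φ.open_source (OK.on hm _) h.m, par_iff_par0.1 h.W,
    h.Φ⟩

/-! ### cylinders -/

variable {E3 : Type} [NormedAddCommGroup E3] [NormedSpace ℝ E3] [FiniteDimensional ℝ E3]
  [MeasurableSpace E3] [BorelSpace E3]
  {H3 : Type} [TopologicalSpace H3] {I3 : ModelWithCorners ℝ E3 H3} [I3.Boundaryless]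
  {Y : Type} [TopologicalSpace Y] [ChartedSpace H3 Y] [IsManifold I3 ∞ Y] [T2Space Y]
  [MeasurableSpace Y] [BorelSpace Y] [SecondCountableTopology Y] [CompactSpace Y]
  {κ : Type} [Fintype κ] {D : YD I3 Y κ lam}

theorem gRel_sh (D : YD I3 Y κ lam) (s : ℝ) :
    GRel D.B D.G D.B D.G (fun x => (x.1, x.2 + s)) univ :=
  ⟨fRel_of_iso (F := D.Z) (F' := D.Z) (Cht98.iso_tau D.F.toPre s),
    fun a b _ _ => by cases a <;> cases b <;> rfl, fun _ _ _ _ _ _ => rfl, fun _ _ => rfl, rfl,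
    fun a _ _ => by cases a <;> rfl⟩

variable (Y) in
/-- the half cylinder -/
def Hf (σ s : ℝ) : Set (Y × ℝ) := univ ×ˢ {t | s < σ * t}

theorem hf_open (σ s : ℝ) : IsOpen (Hf Y σ s) :=
  isOpen_univ.prod (isOpen_lt continuous_const (by fun_prop))

theorem hf_mono {σ s s' : ℝ} (h : s ≤ s') : Hf Y σ s' ⊆ Hf Y σ s :=
  fun _ hz => ⟨trivial, h.trans_lt hz.2⟩

theorem hf_sh (σ s l : ℝ) :
    MapsTo (fun x : Y × ℝ => (x.1, x.2 + l)) (Hf Y σ (s - σ * l)) (Hf Y σ s) := fun z hz =>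
  ⟨trivial, by have : s - σ * l < σ * z.2 := hz.2; show s < σ * (z.2 + l); linarith⟩

theorem admOn_sh {c : Cfg (Y × ℝ) (Option κ) lam 0} {σ s : ℝ} (h : AdmOn c D.B D.G (Hf Y σ s))
    (l : ℝ) : AdmOn (sh l c) D.B D.G (Hf Y σ (s - σ * l)) :=
  ((gRel_sh D l).mono (hf_open _ _) (subset_univ _)).admOn_iff.2
    (h.mono (hf_sh σ s l).image_subset)

variable (D) in
/-- standard high up -/
def Hi (σ : ℝ) (c : Cfg (Y × ℝ) (Option κ) lam 0) (β : YC Y κ lam) : Prop :=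
  ∃ w ζ s, EP D.Z c (cy β) (Hf Y σ s) w ζ

variable {σ : ℝ} {c c' : Cfg (Y × ℝ) (Option κ) lam 0} {β : YC Y κ lam}

theorem Hi.sh (h : Hi D σ c β) (l : ℝ) : Hi D σ (sh l c) β :=
  let ⟨_, ζ, s, h⟩ := h
  ⟨_, ζ, _, h.cm ((gRel_sh D l).fr.mono (hf_open _ _) (subset_univ _)) (hf_sh σ s l)⟩

theorem hi_sh (l : ℝ) : Hi D σ (sh l c) β ↔ Hi D σ c β := ⟨fun h => by
  have := h.sh (-l)
  rwa [show sh (-l) (sh l c) = c from congrArg (pb · c)
    (funext fun x => by simp : (fun x : Y × ℝ => (x.1, x.2 + -l + l)) = id)] at this, (·.sh l)⟩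

theorem Hi.of_ep (h : Hi D σ c' β) (hβ : D.Adm β) {u ζ s} (e : EP D.Z c c' (Hf Y σ s) u ζ) :
    Hi D σ c β :=
  let ⟨_, _, s', h⟩ := h
  ⟨_, _, max s s', (e.mono (hf_mono (le_max_left _ _))).trans (h.mono (hf_mono (le_max_right _ _)))
    hβ.adm.ok.Jsq⟩

theorem Hi.eqv (hD : D.OK) (h : Hi D σ c β) (hβ : D.Adm β) {β' : YC Y κ lam} (hβ' : D.Adm β')
    (e : D.Eqv β β') : Hi D σ c β' :=
  let ⟨_, _, s, h⟩ := h
  let ⟨_, _, e⟩ := e
  ⟨_, _, s, h.trans (((ep_iff (G := D.G) hD.B isOpen_univ (admOn_univ.2 hβ.adm)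
    (admOn_univ.2 hβ'.adm)).2 e).mono (subset_univ _)) hβ'.adm.ok.Jsq⟩

end

end Crest.Agent.X212.Glc56
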