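import Crest.Agent.X212.Nd18.Ind
import Crest.Agent.X212.Nk89.Geo
import Crest.Agent.X212.Glc56.Ep

/-!
# X212 / IX-STD, IX-CYL (helper56): limits are natural; the cylinder
-/

set_option autoImplicit false
set_option linter.unusedSectionVars false
noncomputable section
open scoped Manifold ContDiff Topology InnerProductSpace
open MeasureTheory Set Function Filter

namespace Crest.Agent.X212.Glc56
open An M Cyf70 Nd18 Pj41
open Tmp64 (AdmOn Eq0 admOn_univ)

variable {κ lam : Type} [Fintype κ] [Fintype lam] {Z Z' : Mf 4}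

section std
variable {B : Base Z.M (Option κ) lam} {G : Geo Z.I Z.M (Option κ) lam} {c : C0 Z κ lam}

theorem admOn_pb {X : XD κ lam} (K : Nk X.D B G) (hc : c.Adm B G) {σ s : ℝ}
    (hJ : {t | s < σ * t} ⊆ K.J) : AdmOn (K.pb c) X.D.B X.D.G (Hf X.Y.M σ s) :=
  ((nk_gRel K).mono (hf_open _ _) fun _ hz => K.mem_src.2 (hJ hz.2)).admOn_iff.2
    ((admOn_univ.2 hc).mono (subset_univ _))

theorem ht_mono (e : En B G) {s s' : ℝ} (h : s ≤ s') : e.ht s' ⊆ e.ht s :=
  fun _ ht => h.trans_lt ht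

theorem U_mono (e : En B G) {s s' : ℝ} (h : s ≤ s') : e.U s' ⊆ e.U s :=
  image_mono (prod_mono_right (ht_mono e h))

theorem sd_iff (e : En B G) (hX : e.X.D.OK) (hc : c.Adm B G) {s₀ : ℝ} (hs : e.ht s₀ ⊆ e.K.J)
    {β : e.X.C} : e.Sd c β ↔ e.X.D.Adm β ∧ Hi e.X.D (bif e.out then 1 else -1) (e.K.pb c) β := by
  have k := fun {s} (h : e.ht s ⊆ e.K.J) (hβ : e.X.D.Adm β) w ζ => ep_iff (u := w) (ζ := ζ) hX.B
    (hf_open _ _) (admOn_pb e.K hc h) ((admOn_univ.2 hβ.adm).mono (subset_univ _))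
  refine ⟨fun ⟨w, ζ, s, h⟩ => ⟨h.adm, w, ζ, s, (k h.sub h.adm w ζ).2 h.eq⟩,
    fun ⟨hβ, w, ζ, s, h⟩ => ?_⟩
  have j := (ht_mono e (le_max_right s s₀)).trans hs
  exact ⟨w, ζ, _, hβ, j, (k j hβ w ζ).1 (h.mono (hf_mono (le_max_left _ _)))⟩

end std

theorem mk_ep {b : BG κ lam Z} {b' : BG κ lam Z'} (p : GP b b') {X : XD κ lam} (hX : X.D.OK)
    {K : Nk X.D b.B b.G} {K' : Nk X.D b'.B b'.G} {o : Bool} (h : p.Mk K K' o) {s₀ : ℝ}
    (j : (En.mk X K o).ht s₀ ⊆ K.J) (j' : (En.mk X K' o).ht s₀ ⊆ K'.J) {c : C0 Z κ lam}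
    {c' : C0 Z' κ lam} (hc : c.Adm b.B b.G) (hc' : c'.Adm b'.B b'.G) {u ζ} (e : p.Ce c c' u ζ) :
    ∃ s l, AdmOn (K.pb c) X.D.B X.D.G (Hf X.Y.M (bif o then 1 else -1) s) ∧
      AdmOn (sh l (K'.pb c')) X.D.B X.D.G (Hf X.Y.M (bif o then 1 else -1) s) ∧
      EP X.D.Z (K.pb c) (sh l (K'.pb c')) (Hf X.Y.M (bif o then 1 else -1) s)
        (fun z => u (K.ψ z)) ζ := by
  obtain ⟨s, l, h⟩ := h
  have a := (admOn_sh (admOn_pb K' hc' j') l).mono
    (hf_mono ((le_max_right s₀ _).trans (le_max_right s _)))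
  have i := (le_max_left s₀ (s₀ - (bif o then 1 else -1) * l)).trans (le_max_right s _)
  have h' := fun z hz => h z (hf_mono (le_max_left s (max s₀ (s₀ - (bif o then 1 else -1) * l))) hz)
  refine ⟨_, l, (admOn_pb K hc j).mono (hf_mono i), a, ((ep_pull p.g hc.ok e).cm
    (K.rel.mono (hf_open _ _) fun z hz => K.mem_src.2 (j (hf_mono i hz).2))
    fun z hz => (h' z hz).1).tgt (fun z hz => ?_) (fun k z hz => ?_) (fun z hz => ?_)
    (fun k z hz => ?_) fun z hz => ?_⟩ <;> obtain ⟨-, e1, e2, e3⟩ := h' z hz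
  · exact congrArg c'.m.p e1.symm
  · simp only [e1, e2, (hX.B.pr z).symm _ k]
    exact ((a.ok.cl z hz).proj k).symm
  · simp only [e1, e3]
    exact ContinuousLinearMap.ext fun t => (a.ok.jl z hz t).symm
  · simp only [pullW, e1, e2]
    exact (a.conn.proj' hX.B k z hz).symm
  · exact congrArg c'.Φ e1.symm

/-- **IX-STD** -/
theorem std : StdStmt κ lam := by
  refine ⟨fun Z Z' b b' p X K K' o c c' u ζ β hX _ _ h ⟨s₀, j, j'⟩ hc hc' e => ?_,
    fun Z b e c β β' hX _ hc h hβ q => ?_⟩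
  · obtain ⟨s, l, a, a', k⟩ := mk_ep p hX.ok h j j' hc hc' e
    rw [sd_iff (En.mk X K o) hX.ok hc j, sd_iff (En.mk X K' o) hX.ok hc' j']
    exact and_congr_right fun hβ => ⟨fun h => (hi_sh l).1 (h.of_ep hβ (k.symm a a')),
      fun h => (h.sh l).of_ep hβ k⟩
  · have ⟨_, _, _, h'⟩ := h
    exact (sd_iff e hX.ok hc h'.sub).2 ⟨hβ, ((sd_iff e hX.ok hc h'.sub).1 h).2.eqv hX.ok h'.adm hβ q⟩

/-! ### the cylinder -/

theorem dab_le (s : ℝ) : ∃ t, |deriv Nk89.ab s| ≤ |deriv (tf (some 0) none) t| := by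
  have d : Differentiable ℝ Real.smoothTransition :=
    (Real.smoothTransition.contDiff (n := 1)).differentiable one_ne_zero
  have p : ∀ u, 0 ≤ deriv Real.smoothTransition u := fun u =>
    Real.smoothTransition.monotone.deriv_nonneg
  have k : ∀ u, HasDerivAt (fun u => u * Real.smoothTransition u)
      (Real.smoothTransition u + u * deriv Real.smoothTransition u) u := fun u => by
    have := (hasDerivAt_id u).mul (d u).hasDerivAt
    rwa [one_mul] at this
  have z : ∀ u ≤ 0, Real.smoothTransition u + u * deriv Real.smoothTransition u = 0 := fun u h => by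
    rw [Real.smoothTransition.zero_of_nonpos h, zero_add]
    rcases h.eq_or_lt with rfl | h
    · exact zero_mul _
    · rw [show deriv Real.smoothTransition u = deriv (fun _ => 0) u from EventuallyEq.deriv_eq
        ((eventually_lt_nhds h).mono fun v hv => Real.smoothTransition.zero_of_nonpos hv.le),
        deriv_const, mul_zero]
  have e1 : deriv Nk89.ab s = Real.smoothTransition s + s * deriv Real.smoothTransition s -
      (Real.smoothTransition (-s) + -s * deriv Real.smoothTransition (-s)) := by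
    have := (k s).add ((k (-s)).comp s (hasDerivAt_neg s))
    rw [mul_neg_one, ← sub_eq_add_neg] at this
    exact this.deriv
  have e2 : ∀ u, deriv (tf (some 0) none) ((u + 1) / 2) =
      Real.smoothTransition u + (u + 1) * deriv Real.smoothTransition u := fun u => by
    have h1 : HasDerivAt (fun t : ℝ => 2 * t - 1) 2 ((u + 1) / 2) := by
      simpa using ((hasDerivAt_id ((u + 1) / 2)).const_mul 2).sub_const 1
    have h2 := (hasDerivAt_id ((u + 1) / 2)).mul ((d _).hasDerivAt.comp _ h1)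
    rw [show tf (some 0) none = fun t => t * Real.smoothTransition (2 * t - 1) from
      funext fun t => by simp [tf, fl]; ring]
    refine h2.deriv.trans ?_
    simp only [comp_apply, id, show 2 * ((u + 1) / 2) - 1 = u by ring]
    ring
  have b : ∀ u, 0 ≤ u → |Real.smoothTransition u + u * deriv Real.smoothTransition u| ≤
      |deriv (tf (some 0) none) ((u + 1) / 2)| := fun u h => by
    have := Real.smoothTransition.nonneg u
    have := p u
    rw [e2]; exact abs_le_abs_of_nonneg (by positivity) (by nlinarith)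
  rcases le_total 0 s with h | h
  · exact ⟨_, by rw [e1, z (-s) (by linarith), sub_zero]; exact b s h⟩
  · exact ⟨_, by rw [e1, z s h, zero_sub, abs_neg]; exact b (-s) (by linarith)⟩

theorem dab_sml {δ : ℝ} (h0 : 0 < δ) (h1 : δ ≤ Cht98.dl0) (s : ℝ) :
    (δ * deriv Nk89.ab s) ^ 2 ≤ 1 / 4 := by
  obtain ⟨t, ht⟩ := dab_le s
  have := (mul_le_mul h1 ht (abs_nonneg _) Cht98.dl0_pos.le).trans (Cht98.dl0_le _ _ t)
  rw [← sq_abs, abs_mul, abs_of_pos h0]
  exact (pow_le_pow_left₀ (by positivity) this 2).trans (by norm_num)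

theorem clopen_spO {Y : Type} [TopologicalSpace Y] (f : Bool) {O : Set Y} (h : IsClopen O) :
    IsClopen (spO f O) := by cases f; exacts [isClopen_empty, h]

theorem cyl_ok {X : XD κ lam} (hX : X.OK) (f : Bool) : X.bg.OK (spO f univ) := by
  have := hX.con
  have m : ∀ (a : Bool) s z, z ∈ (X.bg.E a).U s ↔ s < (bif a then 1 else -1) * z.2 :=
    fun a s z => ⟨fun ⟨_, h, e⟩ => e ▸ h.2, fun h => ⟨z, ⟨trivial, h⟩, rfl⟩⟩
  refine ⟨fun _ => hX, hX.ok.B, hX.ok.G, isClopen_univ, clopen_spO f isClopen_univ, subset_univ _,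
    ⟨0, fun a => ⟨fun _ _ => by simp [Nk.J, YD.nk, Jv], subset_univ _, fun a' h =>
      disjoint_left.2 fun z h1 h2 => ?_⟩⟩,
    fun s _ => ⟨univ ×ˢ Icc (-s) s, isCompact_univ.prod isCompact_Icc, fun z _ => ?_⟩,
    fun δ h0 h1 => ⟨⟨Nk89.T0, Nk89.famZ _ X.D δ _, Nk89.endsZ _ hX.ok h0 (clopen_spO f isClopen_univ)
      (dab_sml h0 h1), 0, trivial, (Equiv.subtypeUnivEquiv fun _ => subset_univ _).symm,
      fun _ => X.D.nk, rfl, rfl, rfl, rfl, fun _ => rfl, fun _ => ⟨0, fun _ _ => rfl⟩⟩,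
      inferInstance, rfl⟩⟩
  · rw [m] at h1 h2
    cases a <;> cases a' <;> simp at h h1 h2 <;> linarith
  · by_cases h1 : s < z.2
    · exact .inr (mem_iUnion.2 ⟨true, (m _ _ _).2 (by simpa using h1)⟩)
    by_cases h2 : s < -z.2
    · exact .inr (mem_iUnion.2 ⟨false, (m _ _ _).2 (by simpa using h2)⟩)
    exact .inl ⟨trivial, by linarith [not_lt.1 h2], not_lt.1 h1⟩

end Crest.Agent.X212.Glc56
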